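import Vale.Agent.P072.Perm.Global

/-! The permanence conjecture for weakly reversible mass-action systems. -/

namespace Vale.Agent.Results.P072.Permanence

open Vale.Agent.P072

/-- Every weakly reversible network is permanent on every positive class, also for rates varying
in `[ε, ε⁻¹]`. -/
theorem result :
    ∀ (d : ℕ) (R : Finset (Reaction d)), WeaklyReversible R → ∀ ε : ℝ, 0 < ε → ε ≤ 1 →
      ∀ c : Fin d → ℝ, (∀ i, 0 < c i) →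
    ∃ K : Set (Fin d → ℝ), IsCompact K ∧ K ⊆ posClass R c ∧
      (∀ x₀ ∈ posClass R c, ∃ K₀ : Set (Fin d → ℝ), IsCompact K₀ ∧ K₀ ⊆ posClass R c ∧
        ∀ (k : ℝ → Reaction d → ℝ) (x : ℝ → Fin d → ℝ) (T : ℝ), 0 ≤ T →
          (∀ t ∈ Set.Icc 0 T, ∀ r ∈ R, k t r ∈ Set.Icc ε ε⁻¹) →
          IsSolution R k x T → x 0 = x₀ → ∀ t ∈ Set.Icc 0 T, x t ∈ K₀) ∧
      (∀ (k : ℝ → Reaction d → ℝ) (x : ℝ → Fin d → ℝ),
        (∀ t, 0 ≤ t → ∀ r ∈ R, k t r ∈ Set.Icc ε ε⁻¹) →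
        (∀ T, 0 ≤ T → IsSolution R k x T) → x 0 ∈ posClass R c →
          ∃ T₀, ∀ t, T₀ ≤ t → x t ∈ K) ∧
      ∀ k : ℝ → Reaction d → ℝ, (∀ t, 0 ≤ t → ∀ r ∈ R, k t r ∈ Set.Icc ε ε⁻¹) →
        (∀ r ∈ R, ContinuousOn (fun t => k t r) (Set.Ici 0)) → ∀ x₀ ∈ posClass R c,
          ∃ x : ℝ → Fin d → ℝ, x 0 = x₀ ∧ (∀ T, 0 ≤ T → IsSolution R k x T) ∧
            ∀ (y : ℝ → Fin d → ℝ) (T : ℝ), 0 ≤ T → IsSolution R k y T → y 0 = x₀ →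
              Set.EqOn y x (Set.Icc 0 T) :=
  fun _ R hR _ hε hε1 _ hc => Perm.permanence R hR hε hε1 hc

end Vale.Agent.Results.P072.Permanence
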